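import Mathlib.Algebra.Algebra.Field
import Mathlib.Algebra.Order.Ring.Star
import Mathlib.Algebra.Order.Star.Real
import Mathlib.Analysis.CStarAlgebra.Classes
import Mathlib.Analysis.Calculus.ContDiff.FiniteDimension
import Mathlib.Analysis.Calculus.InverseFunctionTheorem.ContDiff
import Mathlib.Analysis.Calculus.ParametricIntervalIntegral
import Mathlib.Analysis.Complex.Liouville
import Mathlib.Analysis.Complex.RemovableSingularity
import Mathlib.Analysis.RCLike.Sqrt
import Mathlib.Geometry.Manifold.IntegralCurve.UniformTime
import Mathlib.Geometry.Manifold.Riemannian.Basic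
import Mathlib.Geometry.Manifold.Sheaf.Basic
import Mathlib.Geometry.Manifold.VectorField.Pullback
import Mathlib.LinearAlgebra.Complex.FiniteDimensional
import Mathlib.Order.CompletePartialOrder
import Mathlib.RingTheory.PicardGroup
import Mathlib.RingTheory.RegularLocalRing.Defs
import Mathlib.RingTheory.SimpleRing.Principal
import Mathlib.Tactic

/-! The part of Mathlib that the development of this folder uses. -/
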